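import Vale.Agent.P007.N.S1
import Vale.Agent.P007.N.UnfA
import Vale.Agent.P007.N.Glue
import Vale.Agent.P007.E.Reduce

/-! # P007 N: the three parts of the final statement -/

open MeasureTheory Filter Topology NumberField Module Vale.Agent.P319

namespace Vale.Agent.P007

theorem mahler (n : ℕ) : Mahler n := by
  obtain ⟨C, hC⟩ := reduce n
  intro r hr
  obtain ⟨k, hk⟩ := exists_pow_lt_of_lt_one hr (show (1 / 2 : ℝ) < 1 by norm_num)
  refine ⟨_, (isCompact_bdd (2 ^ (C * (k + 1)))).image (isOpenQuotientMap_mk n).continuous,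
    fun x hx => ?_⟩
  obtain ⟨g, hg, hb⟩ := hC k x fun w hw h0 => (hx w hw h0).imp fun _ h => hk.le.trans h
  exact ⟨g, fun p q => (hb p q).le, hg⟩

theorem fin_exists {d : ℕ} {K : Type} [Field K] [NumberField K] {O : Subring K}
    (σ : Fin (d + 1) ≃ (K →+* ℝ)) (hn : finrank ℚ K = d + 1) (hO : IsOrder O) :
    ∃ μ, IsPacketMeasure (packet O σ) μ := by
  obtain ⟨T, pt, vec, nrm, hP, -⟩ := param_packet hO σ hn
  exact unf_exists hP

theorem fin_unique {d : ℕ} {K : Type} [Field K] [NumberField K] {O : Subring K}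
    (σ : Fin (d + 1) ≃ (K →+* ℝ)) (hn : finrank ℚ K = d + 1) (hO : IsOrder O) :
    ∃! μ, IsPacketMeasure (packet O σ) μ := by
  obtain ⟨T, pt, vec, nrm, hP, -⟩ := param_packet hO σ hn
  exact existsUnique_of_exists_of_unique (unf_exists hP) fun _ _ => unf_unique hP

theorem fin_props {d : ℕ} {K : Type} [Field K] [NumberField K] {O : Subring K}
    {σ : Fin (d + 1) ≃ (K →+* ℝ)} (hn : finrank ℚ K = d + 1) (hO : IsOrder O)
    {μ : Measure (X (d + 1))} (hμ : IsPacketMeasure (packet O σ) μ) :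
    IsProbabilityMeasure μ ∧ AInv μ ∧ μ (packet O σ)ᶜ = 0 := by
  obtain ⟨T, pt, vec, nrm, hP, -⟩ := param_packet hO σ hn
  obtain ⟨h1, h2, h3, -⟩ := unf_main hP hμ
  exact ⟨h1, h2, h3⟩

theorem isOrder_max (K : Type) [Field K] [NumberField K] :
    IsOrder (integralClosure ℤ K).toSubring := by
  refine ⟨fun a ha => ha, ?_⟩
  rw [eq_top_iff, ← (integralBasis K).span_eq]
  refine Submodule.span_mono ?_
  rintro _ ⟨i, rfl⟩
  rw [integralBasis_apply]
  exact (RingOfIntegers.basis K i).isIntegral_coe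

theorem fin_tendsto {K : ℕ → Type} [∀ i, Field (K i)] [∀ i, NumberField (K i)]
    (h : Tendsto (fun i => |discr (K i)|) atTop atTop) :
    Tendsto (fun i => orderDisc (integralClosure ℤ (K i)).toSubring) atTop atTop := by
  rw [← tendsto_natCast_atTop_iff (R := ℝ)]
  refine tendsto_atTop_mono (fun i => ?_) (tendsto_intCast_atTop_atTop.comp h)
  simpa using discr_le_orderDisc (isOrder_max (K i))

theorem fin_seq (d : ℕ) (hd : 1 ≤ d) :
    ∃ (K : ℕ → Type) (_ : ∀ i, Field (K i)) (_ : ∀ i, NumberField (K i)),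
      (∀ i, IsTotallyReal (K i) ∧ finrank ℚ (K i) = d + 1) ∧
        Tendsto (fun i => |discr (K i)|) atTop atTop := by
  have key : ∀ N : ℕ, ∃ (L : Type) (_ : Field L) (_ : NumberField L), IsTotallyReal L ∧
      finrank ℚ L = d + 1 ∧ (N : ℤ) ≤ |discr L| := by
    intro N
    obtain ⟨p, hp, hN, hm⟩ := Nat.exists_prime_gt_modEq_one (k := 2 * (d + 1)) N (by omega)
    obtain ⟨L, _, _, -, h1, h2, k, hk⟩ := exists_abstract_field p (d + 1) hp
      ((Nat.modEq_iff_dvd' hp.one_le).1 hm.symm)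
    refine ⟨L, inferInstance, inferInstance, h1, h2, ?_⟩
    have h3 := abs_discr_gt_two (K := L) (by omega)
    rw [Int.abs_eq_natAbs, hk] at h3 ⊢
    have hk0 : k ≠ 0 := by
      rintro rfl
      simp at h3
    exact_mod_cast hN.le.trans (Nat.le_self_pow hk0 p)
  choose K hF hN h1 h2 h3 using key
  exact ⟨K, hF, hN, fun i => ⟨h1 i, h2 i⟩, tendsto_atTop_mono h3 tendsto_natCast_atTop_atTop⟩

theorem fin_pos (hx : XiStmt)
    (hz : ∀ (F : Type) [Field F] [NumberField F], (∃ w : F, w ^ 2 + w + 1 = 0) → ZFStmt F)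
    (d : ℕ) (hd : 1 ≤ d) (hr : RigidStmt (d + 1)) (hu : UniqStmt (d + 1)) :
    ∃ m : Measure (X (d + 1)), IsInvProb m ∧ (∀ m', IsInvProb m' → m' = m) ∧
      ∀ (K : ℕ → Type) [∀ i, Field (K i)] [∀ i, NumberField (K i)] (O : ∀ i, Subring (K i))
        (σ : ∀ i, Fin (d + 1) ≃ (K i →+* ℝ)) (μ : ℕ → Measure (X (d + 1))),
        (∀ i, IsTotallyReal (K i) ∧ finrank ℚ (K i) = d + 1 ∧ IsOrder (O i) ∧
          IsPacketMeasure (packet (O i) (σ i)) (μ i)) →
        Tendsto (fun i => orderDisc (O i)) atTop atTop →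
        (∀ f : CompactlySupportedContinuousMap (X (d + 1)) ℝ,
          Tendsto (fun i => ∫ x, f x ∂μ i) atTop (𝓝 (∫ x, f x ∂m))) ∧
        ∀ ε : ℝ, 0 < ε → ∃ C : Set (X (d + 1)), IsCompact C ∧
          ∀ᶠ i in atTop, ENNReal.ofReal (1 - ε) ≤ μ i C := by
  obtain ⟨C, hC⟩ := s1_packet hx hz d
  have key : ∀ (K : ℕ → Type) [∀ i, Field (K i)] [∀ i, NumberField (K i)]
      (O : ∀ i, Subring (K i)) (σ : ∀ i, Fin (d + 1) ≃ (K i →+* ℝ))
      (μ : ℕ → Measure (X (d + 1))),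
      (∀ i, IsTotallyReal (K i) ∧ finrank ℚ (K i) = d + 1 ∧ IsOrder (O i) ∧
        IsPacketMeasure (packet (O i) (σ i)) (μ i)) →
      Tendsto (fun i => orderDisc (O i)) atTop atTop → _ := fun K _ _ O σ μ h hD =>
    glue (d + 1) (by omega) hr hu (mahler _) μ
      (fun i => (fin_props (h i).2.1 (h i).2.2.1 (h i).2.2.2).1)
      (fun i => (fin_props (h i).2.1 (h i).2.2.1 (h i).2.2.2).2.1) C fun η h0 h1 => by
        obtain ⟨D₀, hD₀⟩ := hC η h0 h1
        filter_upwards [hD.eventually_ge_atTop D₀] with i hi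
        exact hD₀ (K i) (O i) (σ i) (μ i) (h i).2.1 (h i).2.2.1 hi (h i).2.2.2
  obtain ⟨K₀, _, _, h1, h2⟩ := fin_seq d hd
  have hσ : ∀ i, Nonempty (Fin (d + 1) ≃ (K₀ i →+* ℝ)) := fun i =>
    have := (h1 i).1
    nonempty_ordering (K₀ i) _ (h1 i).2
  choose μ₀ hμ₀ using fun i => fin_exists (hσ i).some (h1 i).2 (isOrder_max (K₀ i))
  obtain ⟨m, hm, hm', -⟩ := key K₀ _ _ μ₀
    (fun i => ⟨(h1 i).1, (h1 i).2, isOrder_max _, hμ₀ i⟩) (fin_tendsto h2)
  refine ⟨m, hm, hm', fun K _ _ O σ μ h hD => ?_⟩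
  obtain ⟨m', h3, -, h4⟩ := key K O σ μ h hD
  rwa [hm' m' h3] at h4

theorem fin_neg (d : ℕ) (hd : 4 ≤ d + 1) (hc : ¬(d + 1).Prime) :
    ∃ (K : ℕ → Type) (_ : ∀ i, Field (K i)) (_ : ∀ i, NumberField (K i))
      (O : ∀ i, Subring (K i)) (σ : ∀ i, Fin (d + 1) ≃ (K i →+* ℝ))
      (μ : ℕ → Measure (X (d + 1))),
      (∀ i, IsTotallyReal (K i) ∧ finrank ℚ (K i) = d + 1 ∧ IsOrder (O i) ∧
        IsPacketMeasure (packet (O i) (σ i)) (μ i)) ∧
      Tendsto (fun i => orderDisc (O i)) atTop atTop ∧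
      ∃ f : CompactlySupportedContinuousMap (X (d + 1)) ℝ,
        (∀ m : Measure (X (d + 1)), IsInvProb m → 0 < ∫ x, f x ∂m) ∧ ∀ i, ∫ x, f x ∂μ i = 0 := by
  obtain ⟨K, _, _, h1, h2, f, hf, h3⟩ := composite (d + 1) hd hc
  choose μ hμ using fun i => fin_exists (h1 i).2.2.1.some (h1 i).2.1 (isOrder_max (K i))
  exact ⟨K, _, _, _, _, μ, fun i => ⟨(h1 i).1, (h1 i).2.1, isOrder_max _, hμ i⟩, fin_tendsto h2,
    f, hf, fun i => (h3 i _).2 _ (fin_props (h1 i).2.1 (isOrder_max _) (hμ i)).2.2⟩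

end Vale.Agent.P007
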