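import Vale.Agent.P319.N.PntFin

/-! # P007 N: many primes in `(X^A, X^b]` from the conclusion of `pnt_an`

Plan.  `η = 1/4000`, `pntW k n = η^(k+1) (log n)^k / k! * n^(-1-η)`.  Take `K = ⌈κ log X⌉₊` with
`κ = 2 (A + 2)` (so `2^K ≥ X^(A+2)`), and `k ∈ [K, 2K)`.  Then `S_k ≥ 7/8` for `X ≥ X₀`.  Pointwise
(compare `pnt_point` in `PntFin.lean`), `pntW k n * Λ n` is at most the sum of
* `N (k+1)/2^(k+1)` if `n ≤ X^A` (`pntW_le` with `θ = 2η`); total `≤ N (k+1) 2^(-k-1) X^A`,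
* `N (k+1) 2^(k+1) X^(-bη/4) n^(-1-η/4)` if `n > X^b` (`pntW_le` with `θ = η/2`), small when
  `b η / 4 ≥ 2κ + 2`,
* `N (k+1)/2^(k+1) * pntP n` on proper prime powers,
* `N pntW k p log p` on the primes `p ∈ (X^A, X^b]` with `Λ p ≠ 0`.
So `1/2 ≤ N ∑_p pntW k p log p` for each `k ∈ [K, 2K)`.  Sum over `k`: with `x = η log p`,
`∑_{k < 2K} pntW k p log p = p⁻¹ e^(-x) ∑ (k+1) x^(k+1)/(k+1)! ≤ 2K/p`
(`Real.sum_le_exp_of_nonneg`).  Hence `K/2 ≤ 2 K N ∑ 1/p`, `c = 1/(4N)`. -/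

namespace Vale.Agent.P007

open Finset Vale.Agent.P319

open Classical in
theorem prim_point {N : ℝ} (hN : 0 ≤ N) {Λ : ℕ → ℝ} (U : ℕ) {Y : ℝ} (hY : 0 < Y) (k : ℕ)
    (h1 : ∀ n, Λ n ≤ N * Real.log n) (h2 : ∀ n, ¬IsPrimePow n → Λ n = 0) (n : ℕ) :
    pntW k n * Λ n ≤ N * ((k + 1) * 2 ^ (k + 1) * Y ^ (-(1 / 16000) : ℝ)) *
        (n : ℝ) ^ (-(16001 / 16000) : ℝ) + N * ((k + 1) / 2 ^ (k + 1)) * pntP n +
      N * ((k + 1) / 2 ^ (k + 1)) * (if n ∈ Ioc 0 U then 1 else 0) +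
      N * (if n ∈ (Ioc U ⌊Y⌋₊).filter (fun p => p.Prime ∧ Λ p ≠ 0) then pntW k n * Real.log n
        else 0) := by
  have hw := pntW_nonneg k n
  have hl := Real.log_natCast_nonneg n
  have a1 : 0 ≤ N * ((k + 1) * 2 ^ (k + 1) * Y ^ (-(1 / 16000) : ℝ)) *
      (n : ℝ) ^ (-(16001 / 16000) : ℝ) := by positivity
  have a2 : 0 ≤ N * ((k + 1) / 2 ^ (k + 1)) * pntP n := by
    have := pntP_nonneg n
    positivity
  have a3 : 0 ≤ N * ((k + 1) / 2 ^ (k + 1)) * (if n ∈ Ioc 0 U then (1 : ℝ) else 0) := by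
    split_ifs <;> positivity
  have a4 : 0 ≤ N * (if n ∈ (Ioc U ⌊Y⌋₊).filter (fun p => p.Prime ∧ Λ p ≠ 0) then
      pntW k n * Real.log n else 0) := by
    split_ifs <;> positivity
  by_cases h0 : Λ n = 0
  · rw [h0, mul_zero]
    linarith
  have hn0 : n ≠ 0 := (by_contra fun h => h0 (h2 n h) : IsPrimePow n).ne_zero
  have hn1 : (1 : ℝ) ≤ n := by exact_mod_cast Nat.pos_of_ne_zero hn0
  have b1 : pntW k n * Λ n ≤ N * (pntW k n * Real.log n) := by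
    have := mul_le_mul_of_nonneg_left (h1 n) hw
    linarith
  have b2 : pntW k n * Λ n ≤ N * ((k + 1) / 2 ^ (k + 1)) * (n : ℝ) ^ (-(3 / 4) : ℝ) := by
    refine b1.trans ?_
    rw [mul_assoc N]
    refine mul_le_mul_of_nonneg_left ((pntW_le k n hn0 (1 / 4) (by norm_num)).trans ?_) hN
    rw [div_eq_mul_inv (_ + _ : ℝ), ← inv_pow]
    gcongr
    · norm_num
    · norm_num
  by_cases hp : n.Prime
  swap
  · rw [pntP, if_pos ⟨by_contra fun h => h0 (h2 n h), hp⟩]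
    linarith
  rcases le_or_gt n U with hU | hU
  · rw [if_pos (mem_Ioc.2 ⟨hp.pos, hU⟩)]
    have := mul_le_mul_of_nonneg_left
      (Real.rpow_le_one_of_one_le_of_nonpos hn1 (show (-(3 / 4) : ℝ) ≤ 0 by norm_num))
      (show 0 ≤ N * ((k + 1 : ℝ) / 2 ^ (k + 1)) by positivity)
    linarith
  rcases le_or_gt n ⌊Y⌋₊ with hV | hV
  · rw [if_pos (mem_filter.2 ⟨mem_Ioc.2 ⟨hU, hV⟩, hp, h0⟩)]
    linarith
  have b3 : pntW k n * Real.log n ≤ (k + 1) * 2 ^ (k + 1) * Y ^ (-(1 / 16000) : ℝ) *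
      (n : ℝ) ^ (-(16001 / 16000) : ℝ) := by
    refine (pntW_le k n hn0 (1 / 8000) (by norm_num)).trans ?_
    rw [show (1 / 4000 / (1 / 8000) : ℝ) = 2 by norm_num,
      show (1 / 8000 - 4001 / 4000 : ℝ) = -(1 / 16000) + -(16001 / 16000) by norm_num,
      Real.rpow_add (by positivity), ← mul_assoc]
    have : (n : ℝ) ^ (-(1 / 16000) : ℝ) ≤ Y ^ (-(1 / 16000) : ℝ) :=
      Real.rpow_le_rpow_of_nonpos hY (Nat.lt_of_floor_lt hV).le (by norm_num)
    gcongr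
  have := mul_le_mul_of_nonneg_left b3 hN
  linarith

theorem prim_sum (K p : ℕ) (hp : p ≠ 0) :
    ∑ k ∈ range K, pntW k p * Real.log p ≤ K * (1 / p) := by
  have hp' : (0 : ℝ) < p := by positivity
  have hx : 0 ≤ Real.log p * (1 / 4000) := by
    have := Real.log_natCast_nonneg p
    positivity
  have h1 := Real.sum_le_exp_of_nonneg hx (K + 1)
  rw [sum_range_succ', ← Real.rpow_def_of_pos hp', pow_zero, Nat.factorial_zero] at h1
  calc ∑ k ∈ range K, pntW k p * Real.log p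
      ≤ ∑ k ∈ range K, K * (p : ℝ) ^ (-(4001 / 4000) : ℝ) *
          ((Real.log p * (1 / 4000)) ^ (k + 1) / (k + 1).factorial) := by
        refine sum_le_sum fun k hk => ?_
        have h2 : (k + 1 : ℝ) ≤ K := by exact_mod_cast mem_range.1 hk
        calc pntW k p * Real.log p = (k + 1) * (p : ℝ) ^ (-(4001 / 4000) : ℝ) *
              ((Real.log p * (1 / 4000)) ^ (k + 1) / (k + 1).factorial) := by
              rw [pntW, Nat.factorial_succ, mul_pow]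
              push_cast
              field_simp
              ring
          _ ≤ _ := by gcongr
    _ ≤ K * (p : ℝ) ^ (-(4001 / 4000) : ℝ) * (p : ℝ) ^ (1 / 4000 : ℝ) := by
        rw [← mul_sum]
        gcongr
        norm_num at h1 ⊢
        linarith
    _ = _ := by
        rw [mul_assoc, ← Real.rpow_add hp', one_div (p : ℝ), ← Real.rpow_neg_one]
        norm_num

theorem prim_ite (s : Finset ℕ) (f : ℕ → ℝ) :
    HasSum (fun n => if n ∈ s then f n else 0) (∑ n ∈ s, f n) := by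
  have := hasSum_sum_of_ne_finset_zero (L := .unconditional ℕ)
    (f := fun n => if n ∈ s then f n else 0) (s := s) fun b hb => if_neg hb
  rwa [sum_congr rfl fun b hb => if_pos hb] at this

open Classical in
theorem prim_an (N : ℝ) (hN : 0 < N) (A : ℕ) : ∃ (b : ℕ) (c X₀ : ℝ), 0 < c ∧
    ∀ (Λ : ℕ → ℝ) (X : ℝ), X₀ ≤ X → (∀ n, Λ n ≤ N * Real.log n) →
      (∀ n, ¬IsPrimePow n → Λ n = 0) →
      (∀ k : ℕ, ∃ S, HasSum (fun n => pntW k n * Λ n) S ∧ |S - 1| ≤ X * (k + 1) / 2 ^ (k + 1)) →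
      c ≤ ∑ p ∈ (Ioc ⌊X ^ A⌋₊ ⌊X ^ b⌋₊).filter (fun p => p.Prime ∧ Λ p ≠ 0), (1 : ℝ) / p := by
  obtain ⟨C₁, hC₁⟩ : Summable fun n : ℕ => (n : ℝ) ^ (-(16001 / 16000) : ℝ) :=
    Real.summable_nat_rpow.2 (by norm_num)
  obtain ⟨C₂, hC₂⟩ := pntP_summable
  have c1 : 0 ≤ C₁ := hC₁.nonneg fun _ => by positivity
  have c2 : 0 ≤ C₂ := hC₂.nonneg pntP_nonneg
  have c3 : 0 ≤ 4 * (A + 3) * (1 + N * (1 + C₁ + C₂)) := by positivity
  refine ⟨(4 * A + 15) * 16000, 1 / (4 * N), 4 * (A + 3) * (1 + N * (1 + C₁ + C₂)) + 2,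
    by positivity, fun Λ X hX h1 h2 hS => ?_⟩
  have hX2 : 2 ≤ X := by linarith
  have hX1 : 1 ≤ X := by linarith
  have hX0 : 0 < X := by linarith
  obtain ⟨j, j0, j1, j2⟩ : ∃ j : ℕ, 0 < j ∧ X ≤ 2 ^ j ∧ (2 : ℝ) ^ j ≤ X ^ 2 := by
    obtain ⟨j, j1, j2⟩ := exists_nat_pow_near hX1 one_lt_two
    refine ⟨j + 1, by omega, j2.le, ?_⟩
    rw [pow_succ, sq]
    gcongr
  have j3 : (j : ℝ) ≤ 2 ^ j := by exact_mod_cast (Nat.lt_two_pow_self).le
  set P := (Ioc ⌊X ^ A⌋₊ ⌊X ^ ((4 * A + 15) * 16000)⌋₊).filter (fun p => p.Prime ∧ Λ p ≠ 0)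
  have key : ∀ k ∈ Ico (j * (A + 3)) (2 * (j * (A + 3))),
      1 / 2 ≤ N * ∑ p ∈ P, pntW k p * Real.log p := fun k hk => by
    obtain ⟨k1, k2⟩ := mem_Ico.1 hk
    have k3 : (k + 1 : ℝ) ≤ 2 * (A + 3) * 2 ^ j :=
      calc (k + 1 : ℝ) ≤ 2 * (j * (A + 3)) := by exact_mod_cast k2
        _ = 2 * (A + 3) * j := by ring
        _ ≤ _ := by gcongr
    have e1 : (k + 1 : ℝ) / 2 ^ (k + 1) ≤ 2 * (A + 3) / X ^ (A + 2) :=
      calc (k + 1 : ℝ) / 2 ^ (k + 1) ≤ 2 * (A + 3) * 2 ^ j / 2 ^ (j * (A + 3)) := by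
            gcongr
            · exact one_le_two
            · omega
        _ = 2 * (A + 3) / (2 ^ j) ^ (A + 2) := by
            rw [pow_mul]
            field_simp
            ring
        _ ≤ _ := by gcongr
    have e2 : ∀ i ≤ A + 1, (k + 1 : ℝ) / 2 ^ (k + 1) * X ^ i ≤ 2 * (A + 3) / X := fun i hi =>
      calc (k + 1 : ℝ) / 2 ^ (k + 1) * X ^ i ≤ 2 * (A + 3) / X ^ (A + 2) * X ^ (A + 1) := by
            gcongr
        _ = _ := by
            field_simp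
            ring
    have e3 : (k + 1 : ℝ) * 2 ^ (k + 1) * (X ^ ((4 * A + 15) * 16000)) ^ (-(1 / 16000) : ℝ) ≤
        2 * (A + 3) / X := by
      rw [pow_mul, Real.rpow_neg (by positivity), one_div,
        show (16000 : ℝ) = (16000 : ℕ) by norm_num,
        Real.pow_rpow_inv_natCast (by positivity) (by norm_num)]
      calc (k + 1 : ℝ) * 2 ^ (k + 1) * (X ^ (4 * A + 15))⁻¹
          ≤ 2 * (A + 3) * 2 ^ j * 2 ^ (j * (2 * A + 6)) * (X ^ (4 * A + 15))⁻¹ := by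
            gcongr
            · exact one_le_two
            · nlinarith
        _ ≤ 2 * (A + 3) * X ^ 2 * (X ^ 2) ^ (2 * A + 6) * (X ^ (4 * A + 15))⁻¹ := by
            rw [pow_mul]
            gcongr
        _ = _ := by
            field_simp
            ring
    obtain ⟨S, s1, s2⟩ := hS k
    have s3 := hasSum_le (prim_point hN.le ⌊X ^ A⌋₊ (pow_pos hX0 ((4 * A + 15) * 16000)) k h1 h2)
      s1 ((((hC₁.mul_left _).add (hC₂.mul_left _)).add ((prim_ite _ fun _ => 1).mul_left _)).add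
        ((prim_ite _ _).mul_left _))
    rw [sum_const, Nat.card_Ioc, tsub_zero, nsmul_eq_mul, mul_one] at s3
    have t0 := e2 0 (by omega)
    have t1 := e2 1 (by omega)
    have t2 := (mul_le_mul_of_nonneg_left (Nat.floor_le (pow_pos hX0 A).le)
      (show 0 ≤ (k + 1 : ℝ) / 2 ^ (k + 1) by positivity)).trans (e2 A (by omega))
    rw [pow_zero, mul_one] at t0
    rw [pow_one, mul_comm, ← mul_div_assoc] at t1
    have t3 : 2 * (A + 3) / X * (1 + N * (1 + C₁ + C₂)) ≤ 1 / 2 := by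
      rw [div_mul_eq_mul_div, div_le_iff₀ hX0]
      linarith
    have u1 := mul_le_mul_of_nonneg_left e3 (mul_nonneg hN.le c1)
    have u2 := mul_le_mul_of_nonneg_left t0 (mul_nonneg hN.le c2)
    have u3 := mul_le_mul_of_nonneg_left t2 hN.le
    linarith [(abs_le.1 s2).1]
  have f1 := card_nsmul_le_sum _ _ _ key
  have f2 : ∑ k ∈ Ico (j * (A + 3)) (2 * (j * (A + 3))), ∑ p ∈ P, pntW k p * Real.log p ≤
      ∑ p ∈ P, (2 * (j * (A + 3)) : ℕ) * ((1 : ℝ) / p) := by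
    rw [sum_comm]
    refine sum_le_sum fun p hp => (sum_le_sum_of_subset_of_nonneg ?_ fun k _ _ =>
      mul_nonneg (pntW_nonneg k p) (Real.log_natCast_nonneg p)).trans
      (prim_sum _ p (mem_filter.1 hp).2.1.ne_zero)
    exact fun k hk => mem_range.2 (mem_Ico.1 hk).2
  rw [Nat.card_Ico, show 2 * (j * (A + 3)) - j * (A + 3) = j * (A + 3) by omega, nsmul_eq_mul,
    ← mul_sum] at f1
  rw [← mul_sum, Nat.cast_mul 2] at f2
  have f3 : (0 : ℝ) < (j * (A + 3) : ℕ) := by positivity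
  rw [div_le_iff₀ (by positivity)]
  refine le_of_mul_le_mul_left ?_ f3
  have := mul_le_mul_of_nonneg_left f2 hN.le
  push_cast at this f1 ⊢
  linarith

end Vale.Agent.P007
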