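import Vale.Agent.P007.N.Prim
import Vale.Agent.P319.N.Defs
import Vale.Agent.P319.N.PntLam
import Vale.Agent.P016.Split

/-! # P007 N: primes with a degree one factor in a totally real field

Plan.  `F = K(ω)` from `Vale.Agent.P016.exists_quad` (`x^2 + x + 1 ≠ 0` in `K` via a real
embedding), `finrank ℚ F = 2 n`.  `disc_quad`: `|discr F| ≤ 3^n discr(K)^2`, by
`NumberField.natAbs_discr_eq_absNorm_differentIdeal_mul_natAbs_discr_pow` and
`aeval_derivative_mem_differentIdeal` (`2ω + 1` lies in the different, its square is `-3`, so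
`absNorm(𝔇)^2 ∣ 3^(2n)`).  Apply `pnt_an` as in `nt_of` (`P319/N/Pnt.lean`) and `pnt_card`
(`PntCount.lean`) to `a = pntA F`, `Λ = pntL F`, `M = 2 C (log |discr F| + 2n)`; then
`4 (M + 4000) ≤ X` for `X ≥ X₀(n)`, and `prim_an` with `N = 2n`.  If `pntL F p ≠ 0` then
`pntA F p ≠ 0` (`pntL_prime`), so there is an ideal `Q` of `𝓞 F` of norm `p`, the ring `𝓞 F ⧸ Q` has
`p` elements and is `ZMod p` (`ZMod.ringEquivOfPrime` or `ZMod.ringEquiv`), and we compose with
`algebraMap (𝓞 K) (𝓞 F)`. -/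

namespace Vale.Agent.P007

open Finset NumberField Module Vale.Agent.P319

theorem disc_quad {K F : Type} [Field K] [NumberField K] [Field F] [NumberField F] [Algebra K F]
    (h2 : finrank K F = 2) {w : F} (hw : w ^ 2 + w + 1 = 0) (hK : ∀ x : K, x ^ 2 + x + 1 ≠ 0) :
    |(discr F : ℝ)| ≤ 3 ^ finrank ℚ K * (discr K : ℝ) ^ 2 := by
  obtain ⟨ω, -, hω, -⟩ := Vale.Agent.P016.split_conj h2 hw hK
  have hω' : (ω : F) ^ 2 + ω + 1 = 0 := by
    have := congrArg (algebraMap (𝓞 F) F) hω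
    simpa using this
  have htop : Algebra.adjoin K {algebraMap (𝓞 F) F ω} = ⊤ := by
    have := Subalgebra.isSimpleOrder_of_finrank_prime K F (h2 ▸ Nat.prime_two)
    refine (eq_bot_or_eq_top _).resolve_left fun h => ?_
    have h1 : algebraMap (𝓞 F) F ω ∈ (⊥ : Subalgebra K F) :=
      h ▸ Algebra.subset_adjoin (Set.mem_singleton _)
    obtain ⟨x, hx⟩ := Algebra.mem_bot.1 h1
    refine hK x ((algebraMap K F).injective ?_)
    rw [map_add, map_add, map_pow, hx, map_one, map_zero]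
    exact hω'
  have hD := aeval_derivative_mem_differentIdeal (𝓞 K) K F ω htop
  have hint : IsIntegral (𝓞 K) ω := Algebra.IsIntegral.isIntegral ω
  obtain ⟨g, hg⟩ := minpoly.isIntegrallyClosed_dvd hint
    (p := (Polynomial.X ^ 2 + Polynomial.X + 1 : Polynomial (𝓞 K))) (by simpa using hω)
  have hmem : 2 * ω + 1 ∈ differentIdeal (𝓞 K) (𝓞 F) := by
    have e := congrArg (fun q => Polynomial.aeval ω (Polynomial.derivative q)) hg
    simp only [Polynomial.derivative_mul, map_add, map_mul, minpoly.aeval, zero_mul, add_zero,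
      Polynomial.derivative_X_pow, Polynomial.derivative_X, Polynomial.derivative_one, map_one,
      map_zero] at e
    have e2 : 2 * ω + 1 = Polynomial.aeval ω (Polynomial.derivative (minpoly (𝓞 K) ω)) *
        Polynomial.aeval ω g := by
      rw [← e]
      simp [map_ofNat]
    rw [e2]
    exact Ideal.mul_mem_right _ _ hD
  have hdvd := Ideal.absNorm_dvd_absNorm_of_le ((Ideal.span_singleton_le_iff_mem _).2 hmem)
  have hsq : Ideal.absNorm (Ideal.span {2 * ω + 1}) ^ 2 = (3 ^ finrank ℚ K) ^ 2 := by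
    rw [← map_pow, Ideal.span_singleton_pow,
      show (2 * ω + 1) ^ 2 = -((3 : ℕ) : 𝓞 F) by push_cast; linear_combination 4 * hω,
      Ideal.span_singleton_neg, Ideal.absNorm_span_natCast, RingOfIntegers.rank, ← pow_mul, ← h2,
      finrank_mul_finrank]
  have h3 : Ideal.absNorm (Ideal.span {2 * ω + 1}) = 3 ^ finrank ℚ K :=
    Nat.pow_left_injective two_ne_zero hsq
  rw [h3] at hdvd
  have hle := Nat.le_of_dvd (by positivity) hdvd
  have hN := natAbs_discr_eq_absNorm_differentIdeal_mul_natAbs_discr_pow K (𝓞 K) F (𝓞 F)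
  rw [h2] at hN
  have h4 : (discr F).natAbs ≤ 3 ^ finrank ℚ K * (discr K).natAbs ^ 2 :=
    hN ▸ Nat.mul_le_mul_right _ hle
  have h5 : (((discr F).natAbs : ℕ) : ℝ) ≤ 3 ^ finrank ℚ K * (((discr K).natAbs : ℕ) : ℝ) ^ 2 := by
    exact_mod_cast h4
  rwa [Nat.cast_natAbs, Nat.cast_natAbs, Int.cast_abs, Int.cast_abs, sq_abs] at h5

theorem primK_hom {K F : Type} [Field K] [NumberField K] [Field F] [NumberField F] [Algebra K F]
    {p : ℕ} (hp : p.Prime) (h : pntL F p ≠ 0) : Nonempty (𝓞 K →+* ZMod p) := by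
  rw [pntL_prime F p hp, ← card_pntS] at h
  have h1 : (pntS F p).Nonempty := by
    rw [← card_pos, Nat.pos_iff_ne_zero]
    intro h0
    simp [h0] at h
  obtain ⟨Q, hQ⟩ := h1
  rw [mem_pntS, Ideal.absNorm_apply, Submodule.cardQuot_apply] at hQ
  have : Finite (𝓞 F ⧸ Q) := Nat.finite_of_card_ne_zero (hQ ▸ hp.ne_zero)
  let _ := Fintype.ofFinite (𝓞 F ⧸ Q)
  rw [Nat.card_eq_fintype_card] at hQ
  exact ⟨((ZMod.ringEquivOfPrime (𝓞 F ⧸ Q) hp hQ).symm.toRingHom.comp
    (Ideal.Quotient.mk Q)).comp (algebraMap (𝓞 K) (𝓞 F))⟩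

open Classical in
theorem prim_field (hx : XiStmt)
    (hz : ∀ (F : Type) [Field F] [NumberField F], (∃ w : F, w ^ 2 + w + 1 = 0) → ZFStmt F)
    (n A : ℕ) : ∃ (b : ℕ) (c X₀ : ℝ), 0 < c ∧
    ∀ (K : Type) [Field K] [NumberField K], finrank ℚ K = n → Nonempty (K →+* ℝ) →
      ∀ X : ℝ, X₀ ≤ X → |(discr K : ℝ)| ≤ X ^ 2 →
      c ≤ ∑ p ∈ (Ioc ⌊X ^ A⌋₊ ⌊X ^ b⌋₊).filter (fun p => p.Prime ∧ Nonempty (𝓞 K →+* ZMod p)),
        (1 : ℝ) / p := by
  obtain ⟨C, hC, hx⟩ := hx
  obtain ⟨b, c, X₀, hc, H⟩ := prim_an (2 * n + 1) (by positivity) A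
  refine ⟨b, c, max X₀ (max (2 * (32 * C * n + 16000)) ((128 * C) ^ 2 + 1)), hc, ?_⟩
  intro K _ _ hn ⟨φ⟩ X hX hd
  have X1 : X₀ ≤ X := (le_max_left _ _).trans hX
  have X2 : 2 * (32 * C * n + 16000) ≤ X := ((le_max_left _ _).trans (le_max_right _ _)).trans hX
  have X3 : (128 * C) ^ 2 + 1 ≤ X := ((le_max_right _ _).trans (le_max_right _ _)).trans hX
  have X4 : 1 ≤ X := by nlinarith [sq_nonneg (128 * C)]
  have hK : ∀ x : K, x ^ 2 + x + 1 ≠ 0 := fun x h => by
    have := congrArg φ h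
    rw [map_add, map_add, map_pow, map_one, map_zero] at this
    nlinarith [sq_nonneg (φ x + 1 / 2)]
  obtain ⟨F, _, _, _, h2, w, hw⟩ := Vale.Agent.P016.exists_quad K hK
  have hF : (finrank ℚ F : ℝ) = 2 * n := by
    rw [← finrank_mul_finrank ℚ K F, h2, hn]
    push_cast
    ring
  have hlog : Real.log |(discr F : ℝ)| ≤ 2 * n + 4 * Real.log X := by
    have a1 := disc_quad h2 hw hK
    have a2 : (discr K : ℝ) ^ 2 ≤ X ^ 4 := by
      rw [← sq_abs, show X ^ 4 = (X ^ 2) ^ 2 by ring]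
      gcongr
    have a3 : |(discr F : ℝ)| ≤ 3 ^ n * X ^ 4 := by
      rw [hn] at a1
      exact a1.trans (by gcongr)
    refine (Real.log_le_log (abs_pos.2 (Int.cast_ne_zero.2 (discr_ne_zero F))) a3).trans ?_
    rw [Real.log_mul (by positivity) (by positivity), Real.log_pow, Real.log_pow]
    have a4 : Real.log 3 ≤ 2 := by linarith [Real.log_le_sub_one_of_pos (show (0 : ℝ) < 3 by norm_num)]
    push_cast
    nlinarith [Nat.cast_nonneg (α := ℝ) n]
  have hlX : Real.log X ≤ 2 * √X := by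
    have a1 := Real.log_le_sub_one_of_pos (Real.sqrt_pos.2 (by linarith : 0 < X))
    rw [Real.log_sqrt (by linarith)] at a1
    linarith
  have hs : 128 * C ≤ √X := Real.le_sqrt_of_sq_le (by linarith)
  have hs2 : √X * √X = X := Real.mul_self_sqrt (by linarith)
  have l0 : 0 ≤ Real.log X := Real.log_nonneg X4
  have hM : 4 * (2 * C * (4 * n + 4 * Real.log X) + 4000) ≤ X := by
    have a1 : C * Real.log X ≤ C * (2 * √X) := by gcongr
    have a2 : 128 * C * √X ≤ √X * √X := by gcongr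
    nlinarith
  obtain ⟨Z, z1, z2, z3⟩ := hx F ⟨w, hw⟩
  have key := pnt_an (pntA F) (pntL F) _ (2 * C * (4 * n + 4 * Real.log X)) Z (pntA_one F)
    (pntA_summable F) (pntL_nonneg F) (pntL_le F) (pntL_conv F) z1 z2 (hz F ⟨w, hw⟩ Z z1 z2)
    (by positivity) fun s s1 s2 s3 => (z3 s s1 s2).trans (Real.exp_le_exp.2 (by
      calc C * (Real.log |(discr F : ℝ)| + finrank ℚ F) * (1 + |s.im|)
          ≤ C * (4 * n + 4 * Real.log X) * (1 + |s.im|) := by
            gcongr C * ?_ * _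
            linarith
        _ ≤ C * (4 * n + 4 * Real.log X) * (1 + 1) := by gcongr
        _ = _ := by ring))
  have main := H (pntL F) X X1 (fun m => (pntL_le F m).trans (by
      rw [hF]
      exact mul_le_mul_of_nonneg_right (by linarith) (Real.log_natCast_nonneg m)))
    (pntL_eq_zero F) fun k => by
      obtain ⟨S, h1, h3⟩ := key k
      exact ⟨S, h1, h3.trans (by gcongr)⟩
  refine main.trans (sum_le_sum_of_subset_of_nonneg (fun p hp => ?_) fun _ _ _ => by positivity)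
  rw [mem_filter] at hp ⊢
  exact ⟨hp.1, hp.2.1, primK_hom hp.2.1 hp.2.2⟩

end Vale.Agent.P007
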