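import Vale.Agent.P007.N.Asm
import Vale.Agent.P007.N.Loc
import Vale.Agent.P007.N.PrimK
import Vale.Agent.P007.N.GeoB
import Vale.Agent.P007.N.UnfC

/-! # P007 N: the uniform bound for packet measures of thin sets -/

open MeasureTheory Finset NumberField Module Vale.Agent.P319

namespace Vale.Agent.P007

theorem s1_packet (hx : XiStmt)
    (hz : ∀ (F : Type) [Field F] [NumberField F], (∃ w : F, w ^ 2 + w + 1 = 0) → ZFStmt F)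
    (d : ℕ) : ∃ C : ℝ, ∀ η : ℝ, 0 < η → η < 1 → ∃ D₀ : ℕ,
      ∀ (K : Type) [Field K] [NumberField K] (O : Subring K) (σ : Fin (d + 1) ≃ (K →+* ℝ))
        (μ : Measure (X (d + 1))), finrank ℚ K = d + 1 → IsOrder O → D₀ ≤ orderDisc O →
        IsPacketMeasure (packet O σ) μ →
        ∀ t : ℝ, μ (thin (d + 1) t η) ≤ ENNReal.ofReal (C * √η) := by
  classical
  obtain ⟨C₁, -, h₁⟩ := cnt_loc (d + 1)
  obtain ⟨b, c, X₀, hc, h₂⟩ := prim_field hx hz (d + 1) (d + 1 + 1)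
  obtain ⟨C₂, hC₂, h₃⟩ := asm (d + 1) (by omega) C₁ c b hc
  obtain ⟨C₃, hC₃, h₄⟩ := unf_bounds d
  refine ⟨C₃ * 2 ^ (d + 1) * C₂ * C₃, fun η hη hη1 => ?_⟩
  obtain ⟨Δ₀, h₃⟩ := h₃ η hη hη1.le
  refine ⟨⌈(max Δ₀ X₀) ^ 2⌉₊, fun K _ _ O σ μ hn hO hD hμ t => ?_⟩
  obtain ⟨T, pt, vec, nrm, hP, hcnt⟩ := param_packet hO σ hn
  set Δ : ℝ := √(orderDisc O : ℝ) with hΔ
  have hΔ1 : 1 ≤ Δ := hP.one_le
  have hΔ0 : 0 < Δ := by linarith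
  have hΔ2 : Δ ^ 2 = orderDisc O := Real.sq_sqrt (Nat.cast_nonneg _)
  have hΔm : max Δ₀ X₀ ≤ Δ := Real.le_sqrt_of_sq_le (Nat.ceil_le.1 hD)
  obtain ⟨Z, hZ, hU, hL⟩ := h₄ _ _ _ _ _ _ μ hP hμ
  have := ord_finite hO
  have := ord_free hO
  have hM : Mult (d + 1) C₁ fun m => (cnt O m : ℝ) :=
    ⟨fun m => Nat.cast_nonneg _, fun m q hm hq h => by rw [cnt_mul m q hm hq h, Nat.cast_mul],
      fun p k r hp hk hr => h₁ O ((ord_finrank hO).trans hn) p k r hp hk hr⟩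
  have hA : ∀ Y : ℝ, Δ ^ (d + 1 + 1) ≤ Y → sumA (fun m => (cnt O m : ℝ)) Y ≤ C₃ * Z / Δ * Y := by
    intro Y hY
    refine le_trans (sum_le_sum fun m _ => ?_) (hL Y hY)
    rw [hcnt]
    exact_mod_cast Nat.le_mul_of_pos_left _ (by positivity)
  have hp := h₂ K hn ⟨σ 0⟩ Δ ((le_max_right _ _).trans hΔm) (hΔ2 ▸ discr_le_orderDisc hO)
  have hp' : c ≤ ∑ p ∈ (Ioc ⌊Δ ^ (d + 1 + 1)⌋₊ ⌊Δ ^ b⌋₊).filter
      (fun p => p.Prime ∧ (1 : ℝ) ≤ cnt O p), (1 : ℝ) / p := by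
    refine hp.trans (sum_le_sum_of_subset_of_nonneg (fun p hp => ?_) fun _ _ _ => by positivity)
    simp only [mem_filter] at hp ⊢
    obtain ⟨h1, h2, ⟨φ⟩⟩ := hp
    refine ⟨h1, h2, ?_⟩
    have h3 : Δ < p := (le_self_pow₀ hΔ1 (by omega)).trans_lt (Nat.lt_of_floor_lt (mem_Ioc.1 h1).1)
    have h4 : (orderDisc O : ℝ) < (p : ℝ) ^ 2 := by
      rw [← hΔ2]
      exact pow_lt_pow_left₀ h3 hΔ0.le two_ne_zero
    exact_mod_cast one_le_cnt hO h2 (by exact_mod_cast h4) φ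
  have h5 := h₃ _ Δ (C₃ * Z / Δ) |t| hM ((le_max_left _ _).trans hΔm) (by positivity) hA hp'
  have h6 := hU t η
  simp only [hcnt, Nat.cast_mul, Nat.cast_pow, Nat.cast_ofNat, mul_assoc ((2 : ℝ) ^ (d + 1)),
    ← mul_sum] at h6
  have := (unf_main hP hμ).1
  rw [← ENNReal.ofReal_toReal (measure_ne_top μ _)]
  refine ENNReal.ofReal_le_ofReal (le_of_mul_le_mul_left (h6.trans ?_) hZ)
  calc _ ≤ C₃ * (2 ^ (d + 1) * (C₂ * √η * (C₃ * Z / Δ) * Δ)) := by gcongr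
    _ = _ := by field_simp

end Vale.Agent.P007
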