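import Vale.Agent.P007.N.Final

/-! # P007 N: no escape of mass, in every degree -/

open MeasureTheory Filter Topology NumberField Module Vale.Agent.P319

namespace Vale.Agent.P007

theorem fin_tight (hx : XiStmt)
    (hz : ∀ (F : Type) [Field F] [NumberField F], (∃ w : F, w ^ 2 + w + 1 = 0) → ZFStmt F)
    (d : ℕ) (ε : ℝ) (hε : 0 < ε) : ∃ (C : Set (X (d + 1))) (D₀ : ℕ), IsCompact C ∧
      ∀ (K : Type) [Field K] [NumberField K] (O : Subring K) (σ : Fin (d + 1) ≃ (K →+* ℝ))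
        (μ : Measure (X (d + 1))), IsTotallyReal K → finrank ℚ K = d + 1 → IsOrder O →
        IsPacketMeasure (packet O σ) μ → D₀ ≤ orderDisc O → ENNReal.ofReal (1 - ε) ≤ μ C := by
  obtain ⟨C, hC⟩ := s1_packet hx hz d
  obtain ⟨r, hr0, hr1, hr⟩ := glue_small C hε
  obtain ⟨L, hL, hL'⟩ := mahler (d + 1) r hr0
  obtain ⟨D₀, hD₀⟩ := hC r hr0 hr1
  refine ⟨L, D₀, hL, fun K _ _ O σ μ _ hn hO hμ hD => ?_⟩
  have := (fin_props hn hO hμ).1
  have h4 : μ L = 1 - μ Lᶜ := by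
    rw [← prob_compl_eq_one_sub hL.measurableSet.compl, compl_compl]
  rw [h4, ENNReal.ofReal_sub _ hε.le, ENNReal.ofReal_one]
  exact tsub_le_tsub_left (((measure_mono (glue_compl_subset (by omega) hr0 hr1 hL')).trans
    (hD₀ K O σ μ hn hO hD hμ 0)).trans (ENNReal.ofReal_le_ofReal hr)) _

end Vale.Agent.P007
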